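import Mathlib

/-!
# P215: the truncated logarithm and traces
-/

noncomputable section

namespace Vale.Agent.P215Z.TrLog

open Finset Polynomial

variable {R : Type} [Ring R] [Algebra ℚ R] {V : Type} [AddCommGroup V] [Module ℚ V]

/-- the logarithm of `1 + x`, truncated -/
def lg (N : ℕ) (x : R) : R := ∑ k ∈ range N, ((-1 : ℚ) ^ k / (k + 1)) • x ^ (k + 1)

/-- the inverse of `1 + x`, truncated -/
def iv (N : ℕ) (x : R) : R := ∑ k ∈ range N, (-x) ^ k

omit [Algebra ℚ R] in
theorem iv_mul (N : ℕ) (x : R) : iv N x * (1 + x) = 1 - (-x) ^ N := by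
  have := geom_sum_mul_neg (-x) N
  simpa [iv, sub_neg_eq_add] using this

omit [Algebra ℚ R] in
theorem mul_iv (N : ℕ) (x : R) : (1 + x) * iv N x = 1 - (-x) ^ N := by
  have := mul_neg_geom_sum (-x) N
  simpa [iv, sub_neg_eq_add] using this

omit [Algebra ℚ R] in
theorem iv_mul' {N : ℕ} {x : R} (h : x ^ N = 0) : iv N x * (1 + x) = 1 := by
  rw [iv_mul, neg_pow, h, mul_zero, sub_zero]

omit [Algebra ℚ R] in
theorem mul_iv' {N : ℕ} {x : R} (h : x ^ N = 0) : (1 + x) * iv N x = 1 := by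
  rw [mul_iv, neg_pow, h, mul_zero, sub_zero]

theorem map_lg {S : Type} [Ring S] [Algebra ℚ S] (f : R →ₐ[ℚ] S) (N : ℕ) (x : R) :
    f (lg N x) = lg N (f x) := by
  simp [lg, map_sum]

theorem lg_zero (N : ℕ) : lg N (0 : R) = 0 := by simp [lg]

theorem lg_conj {u w : R} (h : w * u = 1) (h' : u * w = 1) (N : ℕ) (x : R) :
    lg N (u * x * w) = u * lg N x * w := by
  have hp : ∀ k : ℕ, (u * x * w) ^ k = u * x ^ k * w := by
    intro k
    induction k with
    | zero => simp [h']
    | succ k ih =>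
      rw [pow_succ, ih, pow_succ]
      calc u * x ^ k * w * (u * x * w) = u * x ^ k * (w * u) * x * w := by simp only [mul_assoc]
        _ = _ := by rw [h]; simp only [mul_assoc, one_mul]
  simp only [lg, hp, mul_sum, sum_mul, mul_smul_comm, smul_mul_assoc]

/-- a derivation of a power, seen by a functional which is cyclic on the words involved -/
theorem tr_der_pow (τ : R →ₗ[ℚ] V) (δ : R →ₗ[ℚ] R) (hδ : ∀ a b, δ (a * b) = δ a * b + a * δ b)
    (z : R) (hc : ∀ i j : ℕ, τ (z ^ i * δ z * z ^ j) = τ (z ^ (i + j) * δ z)) (k : ℕ) :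
    τ (δ (z ^ (k + 1))) = ((k : ℚ) + 1) • τ (z ^ k * δ z) := by
  have h : ∀ k j : ℕ, τ (δ (z ^ (k + 1)) * z ^ j) = ((k : ℚ) + 1) • τ (z ^ (k + j) * δ z) := by
    intro k
    induction k with
    | zero =>
      intro j
      have := hc 0 j
      simp only [pow_zero, one_mul] at this
      simp [this]
    | succ k ih =>
      intro j
      rw [pow_succ z (k + 1), hδ, add_mul, map_add, mul_assoc, ← pow_succ', ih, hc]
      rw [show k + (j + 1) = k + 1 + j by ring]
      push_cast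
      rw [add_smul ((k : ℚ) + 1) 1, one_smul]
  simpa using h k 0

theorem tr_der_lg (τ : R →ₗ[ℚ] V) (δ : R →ₗ[ℚ] R) (hδ : ∀ a b, δ (a * b) = δ a * b + a * δ b)
    (z : R) (hc : ∀ i j : ℕ, τ (z ^ i * δ z * z ^ j) = τ (z ^ (i + j) * δ z)) (N : ℕ) :
    τ (δ (lg N z)) = τ (iv N z * δ z) := by
  simp only [lg, iv, map_sum, map_smul, tr_der_pow τ δ hδ z hc, sum_mul]
  refine sum_congr rfl fun k _ => ?_
  have hk : (k : ℚ) + 1 ≠ 0 := by positivity
  rw [smul_smul, div_mul_cancel₀ _ hk, neg_pow z, mul_assoc]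
  have : ((-1 : R)) ^ k * (z ^ k * δ z) = ((-1 : ℚ) ^ k) • (z ^ k * δ z) := by
    rw [Algebra.smul_def, map_pow, map_neg, map_one]
  rw [this, map_smul]

/-- a trace, extended to polynomials -/
def trP (τ : R →ₗ[ℚ] V) : R[X] →ₗ[ℚ] (ℕ → V) where
  toFun p n := τ (p.coeff n)
  map_add' p q := by ext n; simp
  map_smul' c p := by ext n; simp

theorem trP_comm (τ : R →ₗ[ℚ] V) (h : ∀ a b, τ (a * b) = τ (b * a)) (p q : R[X]) :
    trP τ (p * q) = trP τ (q * p) := by
  ext n
  simp only [trP, LinearMap.coe_mk, AddHom.coe_mk, coeff_mul, map_sum]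
  rw [← Finset.Nat.sum_antidiagonal_swap]
  exact sum_congr rfl fun x _ => h _ _

theorem tr_eval_sub (τ : R →ₗ[ℚ] V) (p : R[X]) (h : trP τ (derivative p) = 0) :
    τ (p.eval 1) = τ (p.eval 0) := by
  rw [eval_eq_sum_range, map_sum, ← coeff_zero_eq_eval_zero, sum_range_succ']
  simp only [one_pow, mul_one]
  rw [sum_eq_zero, zero_add]
  intro k _
  have h1 := congrFun h k
  simp only [trP, LinearMap.coe_mk, AddHom.coe_mk, coeff_derivative, Pi.zero_apply] at h1
  have h2 : p.coeff (k + 1) * ((k : R) + 1) = ((k : ℚ) + 1) • p.coeff (k + 1) := by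
    rw [Algebra.smul_def, Algebra.commutes]
    simp
  rw [h2, map_smul] at h1
  have hk : (k : ℚ) + 1 ≠ 0 := by positivity
  exact (smul_eq_zero.1 h1).resolve_left hk

/-- evaluation at a rational number -/
def evQ (c : ℚ) : R[X] →ₐ[ℚ] R :=
  (eval₂RingHom' (RingHom.id R) (algebraMap ℚ R c)
    fun a => (Algebra.commutes c a).symm).toRatAlgHom

theorem evQ_apply (c : ℚ) (p : R[X]) : evQ c p = p.eval (algebraMap ℚ R c) := rfl

theorem pow_coeff_mem (J : Submodule ℚ R) (z : R[X]) (hz : ∀ n, z.coeff n ∈ J) (k n : ℕ) :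
    (z ^ k).coeff n ∈ J ^ k := by
  induction k generalizing n with
  | zero =>
    rw [pow_zero, pow_zero, coeff_one]
    split_ifs
    · exact Submodule.one_le.1 le_rfl
    · exact zero_mem _
  | succ k ih =>
    rw [pow_succ, pow_succ, coeff_mul]
    exact Submodule.sum_mem _ fun c _ => Submodule.mul_mem_mul (ih _) (hz _)

/-- the logarithm is additive for a trace -/
theorem tr_lg_mul (τ : R →ₗ[ℚ] V) (h : ∀ a b, τ (a * b) = τ (b * a)) (J : Submodule ℚ R)
    (hJ : J * J ≤ J) {N : ℕ} (hN : J ^ N = ⊥) {x y : R} (hx : x ∈ J) (hy : y ∈ J) :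
    τ (lg N (x + y + x * y)) = τ (lg N x) + τ (lg N y) := by
  set u : R[X] := C x * X with hu
  set z : R[X] := u + C y + u * C y with hz
  have nil : ∀ p : R[X], (∀ n, p.coeff n ∈ J) → p ^ N = 0 := by
    intro p hp
    ext n
    have := pow_coeff_mem J p hp N n
    rw [hN] at this
    simpa using this
  have hum : ∀ n, u.coeff n ∈ J := by
    intro n
    rw [hu, C_mul_X_eq_monomial, coeff_monomial]
    split_ifs
    · exact hx
    · exact zero_mem _
  have hym : ∀ n, (C y : R[X]).coeff n ∈ J := by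
    intro n
    rw [coeff_C]
    split_ifs
    · exact hy
    · exact zero_mem _
  have hzm : ∀ n, z.coeff n ∈ J := by
    intro n
    rw [hz, coeff_add, coeff_add, coeff_mul_C]
    exact add_mem (add_mem (hum n) (hym n)) (hJ (Submodule.mul_mem_mul (hum n) hy))
  let δ : R[X] →ₗ[ℚ] R[X] := (derivative : R[X] →ₗ[R] R[X]).restrictScalars ℚ
  have hδ : ∀ a b, δ (a * b) = δ a * b + a * δ b := fun a b => derivative_mul
  have hc : ∀ (w : R[X]) (i j : ℕ),
      trP τ (w ^ i * δ w * w ^ j) = trP τ (w ^ (i + j) * δ w) := by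
    intro w i j
    rw [trP_comm τ h, ← mul_assoc, ← pow_add, add_comm]
  have h1 := tr_der_lg (trP τ) δ hδ z (hc z) N
  have h2 := tr_der_lg (trP τ) δ hδ u (hc u) N
  have hdu : δ u = C x := by simp [δ, hu]
  have hdz : δ z = C x * (1 + C y) := by
    rw [hz, map_add, map_add, hδ u, hdu]
    simp [δ, mul_add]
  have hfac : 1 + z = (1 + u) * (1 + C y) := by rw [hz]; noncomm_ring
  have e1 := iv_mul' (nil z hzm)
  have e2 := mul_iv' (nil u hum)
  have e3 := mul_iv' (nil _ hym)
  have hiv : (1 + C y) * iv N z = iv N u := by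
    have e4 : iv N z = iv N (C y) * iv N u := by
      calc iv N z = iv N z * ((1 + u) * ((1 + C y) * iv N (C y)) * iv N u) := by
            rw [e3, mul_one, e2, mul_one]
        _ = iv N z * (1 + z) * (iv N (C y) * iv N u) := by rw [hfac]; simp only [mul_assoc]
        _ = _ := by rw [e1, one_mul]
    rw [e4, ← mul_assoc, e3, one_mul]
  have h3 : trP τ (derivative (lg N z - lg N u)) = 0 := by
    change trP τ (δ (lg N z - lg N u)) = 0
    rw [map_sub, map_sub, h1, h2, hdz, hdu, ← mul_assoc, trP_comm τ h, ← mul_assoc, hiv, sub_self]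
  have h4 := tr_eval_sub τ _ h3
  have v1 : ∀ p : R[X], p.eval 1 = evQ 1 p := fun p => by rw [evQ_apply, map_one]
  have v0 : ∀ p : R[X], p.eval 0 = evQ 0 p := fun p => by rw [evQ_apply, map_zero]
  rw [v1, v0, map_sub (evQ 1), map_sub (evQ 0), map_lg, map_lg, map_lg, map_lg, ← v1, ← v1, ← v0,
    ← v0] at h4
  have a1 : u.eval 1 = x := by simp [hu]
  have a0 : u.eval 0 = 0 := by simp [hu]
  have b1 : z.eval 1 = x + y + x * y := by
    rw [hz, eval_add, eval_add, eval_C, v1 (u * C y), map_mul, ← v1, ← v1, a1, eval_C]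
  have b0 : z.eval 0 = y := by
    rw [hz, eval_add, eval_add, eval_C, v0 (u * C y), map_mul, ← v0, ← v0, a0, zero_mul, zero_add,
      add_zero]
  rw [a1, a0, b1, b0, lg_zero, sub_zero, map_sub] at h4
  rw [← h4]
  abel

end Vale.Agent.P215Z.TrLog
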