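import Vale.Agent.P215Z.Fm.Mat
import Vale.Agent.P215Z.Alg.TrLog

/-!
# P215: generation of unipotent groups, traces on holonomy algebras
-/

noncomputable section

namespace Vale.Agent.P215Z.Gen

open Fm
open scoped commutatorElement

section grp

variable {Γ : Type} [Group Γ]

/-- every homomorphism from `G` to an abelian group which kills `S` is trivial -/
def AbGen (G : Subgroup Γ) (S : Set Γ) : Prop :=
  ∀ (A : Type) [CommGroup A] (f : G →* A), (∀ x : G, x.1 ∈ S → f x = 1) → ∀ x, f x = 1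

theorem AbGen.eq_top {G : Subgroup Γ} {S : Set Γ} (h : AbGen G S) (N : Subgroup G)
    (hS : ∀ x : G, x.1 ∈ S → x ∈ N) (hc : ∀ x y : G, ⁅x, y⁆ ∈ N) : N = ⊤ := by
  have hcN : commutator G ≤ N := Subgroup.commutator_le.2 fun x _ y _ => hc x y
  refine eq_top_iff.2 fun x _ => ?_
  have h1 := h (Abelianization G ⧸ N.map Abelianization.of)
    ((QuotientGroup.mk' _).comp Abelianization.of) (fun y hy =>
      (QuotientGroup.eq_one_iff _).2 (Subgroup.mem_map_of_mem _ (hS y hy))) x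
  obtain ⟨n, hn, e⟩ := (QuotientGroup.eq_one_iff _).1 h1
  have h2 : n⁻¹ * x ∈ commutator G := by
    rw [← Abelianization.ker_of, MonoidHom.mem_ker, map_mul, map_inv, e, inv_mul_cancel]
  have h3 := N.mul_mem hn (hcN h2)
  rwa [mul_inv_cancel_left] at h3

/-- generation of a group with a central series -/
theorem le_closure_of_central {G : Subgroup Γ} {S : Set Γ} (hS : S ⊆ G) (h : AbGen G S)
    (Z : ℕ → Subgroup Γ) [hn : ∀ k, (Z k).Normal] (h0 : G ≤ Z 0) {K : ℕ} (hK : Z K = ⊥)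
    (hc : ∀ k, ∀ g ∈ G, ∀ z ∈ Z k, ⁅g, z⁆ ∈ Z (k + 1)) : G ≤ Subgroup.closure S := by
  set H := Subgroup.closure S
  have hH : H ≤ G := (Subgroup.closure_le _).2 hS
  have key : ∀ k, ∀ g ∈ G, ∃ x ∈ H, x⁻¹ * g ∈ Z k := by
    intro k
    induction k with
    | zero => exact fun g hg => ⟨1, one_mem _, by simpa using h0 hg⟩
    | succ k ih =>
      let π := QuotientGroup.mk' (Z (k + 1))
      have hcm : ∀ g ∈ G, ∀ z ∈ Z k, Commute (π g) (π z) := fun g hg z hz => by
        rw [← commutatorElement_eq_one_iff_commute, ← map_commutatorElement]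
        exact (QuotientGroup.eq_one_iff _).2 (hc k g hg z hz)
      have h1 := h.eq_top (((H.map π).comap π).subgroupOf G)
        (fun x hx => Subgroup.mem_map_of_mem π (Subgroup.subset_closure hx)) (fun x y => by
          obtain ⟨a, ha, hz⟩ := ih x.1 x.2
          obtain ⟨b, hb, hw⟩ := ih y.1 y.2
          refine ⟨⁅a, b⁆, H.mul_mem (H.mul_mem (H.mul_mem ha hb) (H.inv_mem ha)) (H.inv_mem hb), ?_⟩
          have hzG : a⁻¹ * x.1 ∈ G := G.mul_mem (G.inv_mem (hH ha)) x.2
          have ex : x.1 = a * (a⁻¹ * x.1) := by simp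
          have ey : y.1 = b * (b⁻¹ * y.1) := by simp
          generalize a⁻¹ * x.1 = z at hz hzG ex
          generalize b⁻¹ * y.1 = w at hw ey
          have c1 := hcm _ (hH ha) _ hw
          have c2 := hcm _ (hH hb) _ hz
          have c3 := hcm _ hzG _ hw
          change π ⁅a, b⁆ = π ⁅x.1, y.1⁆
          rw [ex, ey, map_commutatorElement, map_commutatorElement, map_mul π a, map_mul π b,
            commutatorElement_def, commutatorElement_def, mul_inv_rev, mul_inv_rev]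
          have e1 : π z * (π b * π w) * (π z)⁻¹ = π b * π w := by
            rw [(c2.symm.mul_right c3).eq, mul_inv_cancel_right]
          have e2 : π w * (π a)⁻¹ * (π w)⁻¹ = (π a)⁻¹ := by
            rw [c1.symm.inv_right.eq, mul_inv_cancel_right]
          calc π a * π b * (π a)⁻¹ * (π b)⁻¹
              = π a * π b * (π w * (π a)⁻¹ * (π w)⁻¹) * (π b)⁻¹ := by rw [e2]
            _ = π a * (π z * (π b * π w) * (π z)⁻¹) * (π a)⁻¹ * ((π w)⁻¹ * (π b)⁻¹) := by
              rw [e1]; simp only [mul_assoc]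
            _ = _ := by simp only [mul_assoc])
      intro g hg
      have h2 : (⟨g, hg⟩ : G) ∈ ((H.map π).comap π).subgroupOf G := h1 ▸ Subgroup.mem_top _
      obtain ⟨x, hx, e⟩ := h2
      exact ⟨x, hx, QuotientGroup.eq.1 e⟩
  intro g hg
  obtain ⟨x, hx, e⟩ := key K g hg
  rw [hK, Subgroup.mem_bot, inv_mul_eq_one] at e
  exact e ▸ hx

end grp

section ring

variable {R : Type} [CommRing R]

/-- the congruence subgroup -/
def Cg (J : Ideal R) : Subgroup (M2 R)ˣ where
  carrier := {u | u.1 - 1 ∈ MI J}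
  one_mem' := by simp
  mul_mem' := fun {u v} hu hv => by
    have := MI_mul_sub hu hv
    simpa using this
  inv_mem' := fun {u} hu => by
    have := MI_inv_sub (x := u) (y := 1) hu
    simpa using this

theorem mem_Cg {J : Ideal R} {u : (M2 R)ˣ} : u ∈ Cg J ↔ u.1 - 1 ∈ MI J := Iff.rfl

instance (J : Ideal R) : (Cg J).Normal := ⟨fun u hu g => by
  have h : (g * u * g⁻¹).1 - 1 = g.1 * (u.1 - 1) * (g⁻¹).1 := by
    rw [mul_sub, sub_mul, mul_one, Units.mul_inv]; rfl
  rw [mem_Cg, h]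
  exact MI_conj hu _ _⟩

theorem Cg_bot : Cg (⊥ : Ideal R) = ⊥ :=
  eq_bot_iff.2 fun _ hu => Units.ext (sub_eq_zero.1 (MI_bot.1 hu))

theorem Cg_comm {J J' : Ideal R} {u v : (M2 R)ˣ} (hu : u ∈ Cg J) (hv : v ∈ Cg J') :
    ⁅u, v⁆ ∈ Cg (J * J') := by
  have h : (⁅u, v⁆).1 - 1 =
      ((u.1 - 1) * (v.1 - 1) - (v.1 - 1) * (u.1 - 1)) * ((u⁻¹).1 * (v⁻¹).1) := by
    have h1 : v.1 * u.1 * ((u⁻¹).1 * (v⁻¹).1) = 1 := by
      rw [mul_assoc, ← mul_assoc u.1, Units.mul_inv, one_mul, Units.mul_inv]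
    have h2 : (u.1 - 1) * (v.1 - 1) - (v.1 - 1) * (u.1 - 1) = u.1 * v.1 - v.1 * u.1 := by
      noncomm_ring
    rw [h2, sub_mul, h1, commutatorElement_def]
    simp only [Units.val_mul, mul_assoc]
  rw [mem_Cg, h]
  exact MI_mul_right (sub_mem (MI_mul hu hv) (MI_mul' hv hu)) _

/-- **Generation**: a unipotent group is generated by a set which generates its abelianisation. -/
theorem le_closure {J : Ideal R} (hJ : IsNilpotent J) {G : Subgroup (M2 R)ˣ} (hG : G ≤ Cg J)
    {S : Set (M2 R)ˣ} (hS : S ⊆ G) (h : AbGen G S) : G ≤ Subgroup.closure S := by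
  obtain ⟨K, hK⟩ := hJ
  refine le_closure_of_central hS h (fun k => Cg (J ^ (k + 1))) (by simpa using hG) (K := K)
    (by rw [pow_succ, hK, zero_mul, Ideal.zero_eq_bot, Cg_bot]) fun k g hg z hz => ?_
  rw [pow_succ' J (k + 1)]
  exact Cg_comm (hG hg) hz

/-- the elements which commute with `o` modulo `M` -/
def Cen (M : Ideal R) (o : M2 R) : Subring (M2 R) where
  carrier := {y | o * y - y * o ∈ MI M}
  one_mem' := by simp
  zero_mem' := by simp
  add_mem' := fun {x y} hx hy => by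
    have h : o * (x + y) - (x + y) * o = (o * x - x * o) + (o * y - y * o) := by noncomm_ring
    change _ ∈ MI M
    rw [h]
    exact add_mem hx hy
  neg_mem' := fun {x} hx => by
    have h : o * (-x) - (-x) * o = -(o * x - x * o) := by noncomm_ring
    change _ ∈ MI M
    rw [h]
    exact neg_mem hx
  mul_mem' := fun {x y} hx hy => by
    have h : o * (x * y) - (x * y) * o = (o * x - x * o) * y + x * (o * y - y * o) := by
      noncomm_ring
    change _ ∈ MI M
    rw [h]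
    exact add_mem (MI_mul_right hx y) (MI_mul_left x hy)

theorem mem_Cen {M : Ideal R} {o y : M2 R} : y ∈ Cen M o ↔ o * y - y * o ∈ MI M := Iff.rfl

theorem smul_mem_Cen {M : Ideal R} {o y : M2 R} (c : R) (h : y ∈ Cen M o) : c • y ∈ Cen M o := by
  rw [mem_Cen, mul_smul_comm, smul_mul_assoc, ← smul_sub]
  exact Submodule.smul_mem _ c h

theorem lie_inv (o : M2 R) (u : (M2 R)ˣ) :
    o * (u⁻¹).1 - (u⁻¹).1 * o = -((u⁻¹).1 * (o * u.1 - u.1 * o) * (u⁻¹).1) := by
  rw [mul_sub, sub_mul, mul_assoc, mul_assoc, Units.mul_inv, mul_one, ← mul_assoc,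
    Units.inv_mul, one_mul, neg_sub]

theorem inv_mem_Cen {M : Ideal R} {o : M2 R} {u : (M2 R)ˣ} (h : u.1 ∈ Cen M o) :
    (u⁻¹).1 ∈ Cen M o := by
  rw [mem_Cen, lie_inv]
  exact neg_mem (MI_conj h _ _)

theorem closure_mem_Cen {M : Ideal R} {o : M2 R} {S : Set (M2 R)ˣ}
    (h : ∀ s ∈ S, s.1 ∈ Cen M o) {g : (M2 R)ˣ} (hg : g ∈ Subgroup.closure S) :
    g.1 ∈ Cen M o := by
  induction hg using Subgroup.closure_induction with
  | mem x hx => exact h x hx
  | one => exact one_mem _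
  | mul x y _ _ hx hy => exact mul_mem hx hy
  | inv x _ hx => exact inv_mem_Cen hx

variable {V : Type} [AddCommGroup V]

/-- the elements `x` of `Cen M o` such that `φ (tr ([o, x] y))` vanishes for all `y` in `Cen M o` -/
def Tra (M : Ideal R) (o : M2 R) (φ : R →+ V) : Subring (M2 R) where
  carrier := {x | x ∈ Cen M o ∧ ∀ y ∈ Cen M o, φ ((o * x - x * o) * y).trace = 0}
  one_mem' := ⟨one_mem _, by simp⟩
  zero_mem' := ⟨zero_mem _, by simp⟩
  add_mem' := fun {x x'} hx hx' => ⟨add_mem hx.1 hx'.1, fun y hy => by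
    have h : (o * (x + x') - (x + x') * o) * y = (o * x - x * o) * y + (o * x' - x' * o) * y := by
      noncomm_ring
    rw [h, Matrix.trace_add, map_add, hx.2 y hy, hx'.2 y hy, add_zero]⟩
  neg_mem' := fun {x} hx => ⟨neg_mem hx.1, fun y hy => by
    have h : (o * (-x) - (-x) * o) * y = -((o * x - x * o) * y) := by noncomm_ring
    rw [h, Matrix.trace_neg, map_neg, hx.2 y hy, neg_zero]⟩
  mul_mem' := fun {x x'} hx hx' => ⟨mul_mem hx.1 hx'.1, fun y hy => by
    have h : (o * (x * x') - (x * x') * o) * y =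
        (o * x - x * o) * (x' * y) + x * ((o * x' - x' * o) * y) := by noncomm_ring
    rw [h, Matrix.trace_add, map_add, hx.2 _ (mul_mem hx'.1 hy), Matrix.trace_mul_comm x,
      mul_assoc, hx'.2 _ (mul_mem hy hx.1), add_zero]⟩

theorem inv_mem_Tra {M : Ideal R} {o : M2 R} {φ : R →+ V} {u : (M2 R)ˣ} (h : u.1 ∈ Tra M o φ) :
    (u⁻¹).1 ∈ Tra M o φ := by
  have h1 := inv_mem_Cen h.1
  refine ⟨h1, fun y hy => ?_⟩
  have e : (o * (u⁻¹).1 - (u⁻¹).1 * o) * y =
      -((u⁻¹).1 * ((o * u.1 - u.1 * o) * ((u⁻¹).1 * y))) := by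
    rw [lie_inv, neg_mul]
    simp only [mul_assoc]
  rw [e, Matrix.trace_neg, Matrix.trace_mul_comm, mul_assoc, map_neg,
    h.2 _ (mul_mem (mul_mem h1 hy) h1), neg_zero]

theorem closure_mem_Tra {M : Ideal R} {o : M2 R} {φ : R →+ V} {S : Set (M2 R)ˣ}
    (h : ∀ s ∈ S, s.1 ∈ Tra M o φ) {g : (M2 R)ˣ} (hg : g ∈ Subgroup.closure S) :
    g.1 ∈ Tra M o φ := by
  induction hg using Subgroup.closure_induction with
  | mem x hx => exact h x hx
  | one => exact one_mem _
  | mul x y _ _ hx hy => exact mul_mem hx hy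
  | inv x _ hx => exact inv_mem_Tra hx

variable [Algebra ℚ R] [Module ℚ V]

/-- the same as a subalgebra -/
def TraA (M : Ideal R) (o : M2 R) (φ : R →ₗ[ℚ] V) : Subalgebra ℚ (M2 R) :=
  { Tra M o φ.toAddMonoidHom with
    algebraMap_mem' := fun c => by
      have h : o * algebraMap ℚ (M2 R) c - algebraMap ℚ (M2 R) c * o = 0 := by
        rw [Algebra.commutes, sub_self]
      exact ⟨by rw [mem_Cen, h]; exact zero_mem _, fun y _ => by rw [h]; simp⟩ }

theorem pow_le_MI (B : Subalgebra ℚ (M2 R)) (J : Ideal R) (n : ℕ) :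
    ((MI J).restrictScalars ℚ).comap B.val.toLinearMap ^ n ≤
      ((MI (J ^ n)).restrictScalars ℚ).comap B.val.toLinearMap := by
  induction n with
  | zero => rw [pow_zero J, Ideal.one_eq_top]; exact fun x _ => MI_top _
  | succ n ih =>
    rw [pow_succ, pow_succ]
    exact Submodule.mul_le.2 fun x hx y hy => MI_mul (ih hx) hy

/-- **The logarithm is additive** on the units of the algebra `Tra M o φ`. -/
theorem lg_mul {M J : Ideal R} {N : ℕ} (hN : J ^ N = ⊥) {o : M2 R} {φ : R →ₗ[ℚ] V}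
    {u v : (M2 R)ˣ} (hu : u ∈ Cg J) (hv : v ∈ Cg J) (hu' : u.1 ∈ Tra M o φ.toAddMonoidHom)
    (hv' : v.1 ∈ Tra M o φ.toAddMonoidHom) :
    φ (o * TrLog.lg N ((u * v).1 - 1)).trace =
      φ (o * TrLog.lg N (u.1 - 1)).trace + φ (o * TrLog.lg N (v.1 - 1)).trace := by
  let B := TraA M o φ
  let τ : B →ₗ[ℚ] V := φ ∘ₗ (Matrix.traceLinearMap (Fin 2) ℚ R) ∘ₗ
    (LinearMap.mulLeft ℚ o) ∘ₗ B.val.toLinearMap
  have hτ : ∀ x : B, τ x = φ (o * x.1).trace := fun _ => rfl
  have hc : ∀ x y : B, τ (x * y) = τ (y * x) := fun x y => by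
    have h := x.2.2 y.1 y.2.1
    rw [sub_mul, Matrix.trace_sub, map_sub, sub_eq_zero, mul_assoc x.1, Matrix.trace_mul_comm x.1,
      mul_assoc, mul_assoc] at h
    exact h
  let JJ : Submodule ℚ B := ((MI J).restrictScalars ℚ).comap B.val.toLinearMap
  have hJJ : JJ * JJ ≤ JJ := Submodule.mul_le.2 fun x hx y _ => MI_mul_right hx _
  have hJN : JJ ^ N = ⊥ := eq_bot_iff.2 fun x hx => by
    have h := pow_le_MI B J N hx
    rw [hN] at h
    exact Subtype.ext (MI_bot.1 h)
  let x : B := ⟨u.1, hu'⟩ - 1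
  let y : B := ⟨v.1, hv'⟩ - 1
  have h := TrLog.tr_lg_mul τ hc JJ hJJ hJN (x := x) (y := y) hu hv
  have hl : ∀ z : B, (TrLog.lg N z).1 = TrLog.lg N z.1 := fun z => TrLog.map_lg B.val N z
  rw [hτ, hτ, hτ, hl, hl, hl] at h
  have e : (x + y + x * y).1 = (u * v).1 - 1 := by
    change u.1 - 1 + (v.1 - 1) + (u.1 - 1) * (v.1 - 1) = u.1 * v.1 - 1
    noncomm_ring
  rw [e] at h
  exact h

end ring

end Vale.Agent.P215Z.Gen
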